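import Vale.Agent.P037.Main

namespace Vale.Agent.Results.P037.FewLinesPolynomial

open Vale.Agent.P037

theorem result :
    ∀ (k : ℕ) (H : Fin k → Fin k → Bool), ∃ c : ℝ, 0 < c ∧ ∃ C : ℕ,
      ∀ n : ℕ, 1 ≤ n → ∀ ε : ℝ, 0 < ε → ε < 1 → ∀ s : ℕ, 1 ≤ s →
        ∀ A A' : Fin n → Fin n → Bool,
          (rowKinds A' ≤ s ∨ rowKinds (fun r c => A' c r) ≤ s) →
          (diffCount A A' : ℝ) ≤ c * (ε / s) ^ C * (n : ℝ) ^ 2 → Far H ε A →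
            c * (ε / s) ^ C * (n : ℝ) ^ (2 * k) ≤ (copyCount H A : ℝ) :=
  removal_few_lines

end Vale.Agent.Results.P037.FewLinesPolynomial
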