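import Vale.Agent.P037.Gen.Main

open Vale.Agent.P037

/-- For every pattern, a matrix `ε`-far from free has at least
`n^(2k) / 2^(2^((C ⌈1/ε⌉)^C))` ordered copies. -/
theorem Vale.Agent.Results.P037.GeneralRemoval.result :
    ∀ (k : ℕ) (H : Fin k → Fin k → Bool), ∃ C : ℕ,
      ∀ n : ℕ, 1 ≤ n → ∀ ε : ℝ, 0 < ε → ∀ A : Fin n → Fin n → Bool, Far H ε A →
        n ^ (2 * k) ≤ 2 ^ 2 ^ ((C * ⌈1 / ε⌉₊) ^ C) * copyCount H A :=
  Gen.removal
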