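import Vale.Agent.P037.Hier.BlowUp

namespace Vale.Agent.Results.P037.PolynomialRemovalFalse

open Vale.Agent.P037

theorem result :
    ∃ H : Fin 5 → Fin 5 → Bool,
      (∀ L : ℕ, 1 ≤ L → ∀ N : ℕ, ∃ n : ℕ, N ≤ n ∧ 1 ≤ n ∧ ∃ A : Fin n → Fin n → Bool,
        Far H (1 / (3 * (4 * (L : ℝ) + 16) ^ 2)) A ∧
          (copyCount H A : ℝ) * 2 ^ L ≤ (n : ℝ) ^ 10) ∧
      (¬ ∃ c C : ℝ, 0 < c ∧ 0 < C ∧ ∀ ε : ℝ, 0 < ε → ε < 1 → ∃ N : ℕ, ∀ n : ℕ, N ≤ n →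
        ∀ A : Fin n → Fin n → Bool, Far H ε A →
          c * ε ^ C * (n : ℝ) ^ (2 * 5) ≤ (copyCount H A : ℝ)) ∧
      ¬ ∃ c C : ℝ, 0 < c ∧ 0 < C ∧ ∀ n : ℕ, 1 ≤ n → ∀ ε : ℝ, 0 < ε → ε < 1 →
        ∀ A : Fin n → Fin n → Bool, Far H ε A →
          c * ε ^ C * (n : ℝ) ^ (2 * 5) ≤ (copyCount H A : ℝ) :=
  Hier.not_polynomial_removal_large

end Vale.Agent.Results.P037.PolynomialRemovalFalse
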